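import Vale.Agent.P060.AlphaTwo

/-!
P060: Hadwiger's conjecture for graphs with small non-degree compared to the matching number of
the complement; the exponent improves when the independence number is at most two.
-/

open Vale.Agent.P060

namespace Vale.Agent.Results.P060.SparseComplementHadwiger

theorem result (V : Type) [Fintype V] (G : SimpleGraph V) (D : ℕ)
    (hD : ∀ v, (Gᶜ.neighborSet v).ncard ≤ D)
    (hbig : 2 * D ^ 3 < Gᶜ.support.ncard ∨ (∃ M, IsPairs Gᶜ.Adj M ∧ D ^ 2 < M.card) ∨
      (G.indepNum ≤ 2 ∧ ∃ M, IsPairs Gᶜ.Adj M ∧ 64 * D ^ 3 < M.card ^ 2)) :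
    ∀ k : ℕ, ¬ HasMinor G (k + 1) → G.Colorable k := by
  intro k hk
  rcases hbig with h | h | ⟨hα, h⟩
  · exact colorable_of_sparse_compl G D hD (Or.inl h) k hk
  · exact colorable_of_sparse_compl G D hD (Or.inr h) k hk
  · exact AlphaTwo.colorable_of_alpha_two G D hD hα h k hk

end Vale.Agent.Results.P060.SparseComplementHadwiger
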